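import Vale.Agent.P167.N.Wd
import Vale.Agent.P167.N.H542.Q.Pc
import Vale.Agent.P167.H436.ND.Defs

/-!
# P167, `0 < q < 1`, block Q-ND: the statement of the pointwise bounds of the visiting pieces
-/

set_option autoImplicit false

namespace Vale.Agent.P167.N.H436.ND

open Vale.Agent.P167.H436.ND Vale.Agent.P167.H436

open Finset Vale.Agent.P167 Vale.Agent.P167.BR Vale.Agent.P167.FK

open Vale.Agent.P167.QX (wB XB lo hi)

open Vale.Agent.P167.QB (gB XG Ard sgm sg dlt)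

open Vale.Agent.P167.E6 (IsPolygon Encloses)

open Vale.Agent.P167.H542 (Geo)

open Vale.Agent.P167.H542.Q (Phs wR XR thB)

open Vale.Agent.P167.H562.QM (MajA)

open Vale.Agent.P167.H562.MAJ (Sm)

open Vale.Agent.P167.H562.SML (smf)

open Vale.Agent.P167.H718 (Dob)

open Vale.Agent.P167.H192.TA (Xc)

open Classical in
/-- **(PW)** Bounds of the product over the pieces which visit the zones. Owner: helper276. -/
def S_PW : Prop := ∀ (θ c : ℝ) (D : Finset (ℤ × ℤ)) (th : Finset Ed → ℝ) (p : ℤ × ℤ),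
  Vale.Agent.P167.N.H542.Q.Phs θ c D th → ∀ (m : ℕ) (Z : Fin m → Finset (ℤ × ℤ)) (K : Fin m → Set (ℤ × ℤ)) (d : Fin m → ℝ),
  Rng D p Z K d → ∀ (f : Fin m → ℤ × ℤ → ℝ) (E : ℤ × ℤ → ℝ), (∀ i z, f i z ≠ 0 → z ∈ K i) →
  ∀ ω : Cfg, (∀ i ℓ, IsLoop ω ℓ → Small (d i) ℓ → |G (f i) ℓ| ≤ dw θ) →
  (∀ A ∈ pcs ω D, (∃ i, Vz (Z i) A ∧ Small (d i) A) → mass D p E A = 0 ∧
    (¬ IsLp D A → mass D p (Ft (fun _ => 1) f E) A = 0)) →
  ∀ (N : Fin m → ℕ), (∀ i, MajA (Z i) (d i) ω (N i)) → ∀ M : ℝ, 1 ≤ M → c⁻¹ ≤ M →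
  |∏ A ∈ (pcs ω D).filter (fun A => ∃ i, Vz (Z i) A),
      wR (th A) (mass D p (Ft (fun _ => 1) f E) A)| ≤
    ∏ i, M ^ (N i) * Real.exp (-(Real.tan θ * Sm (f i) (d i) ω)) ∧
  ((∀ A ∈ pcs ω D, (∃ i, Vz (Z i) A ∧ ¬ Small (d i) A) →
      M⁻¹ ≤ wR (th A) (mass D p (Ft (fun _ => 1) f E) A)) →
    ∏ i, (M⁻¹ ^ (N i) * Real.exp (-(Real.tan θ * Sm (f i) (d i) ω) -
        kw θ * ∑ ℓ ∈ smf (Z i) (d i) ω, (G (f i) ℓ) ^ 2)) ≤
      ∏ A ∈ (pcs ω D).filter (fun A => ∃ i, Vz (Z i) A),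
        wR (th A) (mass D p (Ft (fun _ => 1) f E) A))

end Vale.Agent.P167.N.H436.ND
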