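import Vale.Agent.P167.N.Wd
import Vale.Agent.P167.N.Kit
import Vale.Agent.P167.H436.ND.Cut2

/-!
# P167, `0 < q < 1`, block Q-ND: statements of the parts of the general theorem `S_MR`

The constant `30` of the majorant `Yl` is replaced by `kw θ`; nothing else changes.
-/

set_option autoImplicit false

namespace Vale.Agent.P167.N.H436.ND

open Vale.Agent.P167.H436.ND
open Finset MeasureTheory Vale.Agent.P167 Vale.Agent.P167.BR Vale.Agent.P167.FK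
open Vale.Agent.P167.FKA (Loc Ind)
open Vale.Agent.P167.QB (XG)
open Vale.Agent.P167.H562.QM (MajA NbP)
open Vale.Agent.P167.H562.MAJ (Sm)
open Vale.Agent.P167.H562.SML (smf)
open Vale.Agent.P167.H192.TA (Xc)

/-- The majorant of the inverse. -/
noncomputable def Yl (θ M τ : ℝ) (f : ℤ × ℤ → ℝ) (b : ℤ × ℤ) (a : ℤ) (N : ℕ) (ω : Cfg) : ℝ :=
  M ^ N * Real.exp (Real.tan θ * Sm (fun z => τ * f z) (kp * a) ω +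
    kw θ * ∑ ℓ ∈ smf (Zr b a) (kp * a) ω, (G (fun z => τ * f z) ℓ) ^ 2)

/-- **(MR)** The general theorem. Owner: helper436. -/
def S_MR (θ : ℝ) (P : Measure Cfg) : Prop :=
  ∀ (m : ℕ) (vs M C1 Cm : ℝ), 0 < m → 1 ≤ vs → 1 ≤ M → 0 < C1 → 0 < Cm →
  ∃ K0 : ℤ, 4 ≤ K0 ∧ ∀ K : ℤ, K0 ≤ K → ∃ (c C : ℝ) (a₀ : ℤ), 0 < c ∧
  ∀ v : ℕ → ℝ, v 0 = 1 → (∀ j, 1 ≤ v j) → (∀ j, v j ≤ vs) → (∀ j, v j ≠ 1 → j < m) →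
  ∀ (n : ℕ) (q : ZMod n → ℤ × ℤ) (D : Finset (ℤ × ℤ)) (l : ℕ) (R : ℤ) (η : Cfg) (pl pr : Bool),
  Win q D l R → FltO D η (q l) R pl pr →
  ∀ a : Fin m → ℤ, Scl a₀ K R a → (∀ i, K * a i ≤ R) →
    (∀ i j : Fin m, (i : ℕ) + 1 = j → v j ≠ 1 → a j ≤ 2 * K * a i) →
  ∀ f : Fin m → ℤ × ℤ → ℝ, (∀ i, Bp Cm (q l) (a i) (f i)) → ∀ τ : Fin m → ℝ, (∀ i, |τ i| ≤ 1) →
  ∀ X : Cfg → ℝ,
    (∀ S ⊆ D, ∀ N : Fin m → ℕ, (∀ i, MajA (Zr (q l) (a i)) (kp * a i) (cf D η S) (N i)) →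
      |X (cf D η S)| ≤ C1 * (Vc v q D (zf (q l) a) (UU (q l) a 0) (cf D η S) *
        ∏ i, Yu θ M (τ i) (f i) (a i) (N i) (cf D η S)) ∧
      ((∀ i j : Fin m, (i : ℕ) + 1 = j → cf D η S ∉ Xc false (q l) (2 * a i) (a j)) →
        Vc v q D (zf (q l) a) (UU (q l) a 0) (cf D η S) ≤
          C1 * (X (cf D η S) * ∏ i, Yl θ M (τ i) (f i) (q l) (a i) (N i) (cf D η S)))) →
    c ≤ Ex (2 * Real.cos θ) D η X * Real.exp (Ex0 θ P τ a) ∧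
      Ex (2 * Real.cos θ) D η X * Real.exp (Ex0 θ P τ a) ≤ C

/-- **(JD)** Deterministic part of `S_jun` (law-free; from `S_PW`, `S_cls`, `S_small`, `S_cross`). The class weights
are `v j = sin (θ + m_j) / sin θ`, `m_j` the charge of the first `j` rings. -/
def S_jd (θ : ℝ) : Prop := ∃ J0 : ℕ, 0 < J0 ∧ ∀ J : ℕ, J0 ≤ J →
  ∃ (v : ℕ → ℝ) (vs M : ℝ) (K0 a₀ : ℤ), v 0 = 1 ∧ (∀ j, 1 ≤ v j) ∧ (∀ j, v j ≤ vs) ∧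
  (∀ j, v j ≠ 1 → j < 2 * J ∧ j ≠ J) ∧ 1 ≤ M ∧ 4 ≤ K0 ∧
  ∀ (n : ℕ) (q : ZMod n → ℤ × ℤ) (D : Finset (ℤ × ℤ)) (k : ℕ) (R : ℤ), Win q D k R → 0 < k →
  ∀ a : Fin (2 * J) → ℤ, Scl a₀ K0 R a → (∀ i, K0 * a i ≤ R) →
  ∀ (Cm : ℝ) (f : Fin (2 * J) → ℤ × ℤ → ℝ), (∀ i, Bp Cm (q k) (a i) (f i)) →
  ∀ (ω : Cfg) (N : Fin (2 * J) → ℕ), (∀ i, MajA (Zr (q k) (a i)) (kp * a i) ω (N i)) →
    |XG θ q D k (Ft (tau2 J (Real.pi - 2 * θ)) f 0) ω| ≤ Vc v q D (zf (q k) a) (UU (q k) a 0) ω *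
      ∏ i, Yu θ M (tau2 J (Real.pi - 2 * θ) i) (f i) (a i) (N i) ω ∧
    ((∀ i j : Fin (2 * J), (i : ℕ) + 1 = j → ω ∉ Xc false (q k) (2 * a i) (a j)) →
      Vc v q D (zf (q k) a) (UU (q k) a 0) ω ≤ XG θ q D k (Ft (tau2 J (Real.pi - 2 * θ)) f 0) ω *
        ∏ i, Yl θ M (tau2 J (Real.pi - 2 * θ) i) (f i) (q k) (a i) (N i) ω)

/-- **(YM)** Moments and locality of the majorants. -/
def S_Y (θ : ℝ) (P : Measure Cfg) : Prop := ∀ Cm M : ℝ, 0 < Cm → 1 ≤ M → ∃ (C : ℝ) (a₀ : ℤ), 0 < C ∧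
  ∀ (b : ℤ × ℤ) (a : ℤ), a₀ ≤ a → ∃ N : Cfg → ℕ, (∀ ω, MajA (Zr b a) (kp * a) ω (N ω)) ∧
  ∀ (D : Finset (ℤ × ℤ)) (η : Cfg) (R : ℤ) (pl pr : Bool), Flt D b R → FltO D η b R pl pr → 8 * a ≤ R →
  ∀ f : ℤ × ℤ → ℝ, Bp Cm b a f → ∀ τ : ℝ, |τ| ≤ 1 →
    Rd D (Zg b (a / 2) (3 * a)) (fun ω => Yu θ M τ f a (N ω) ω) ∧
    Rd D (Zg b (a / 2) (3 * a)) (fun ω => Yl θ M τ f b a (N ω) ω) ∧
    ∀ g : Cfg → ℝ, (∀ ω, 0 ≤ g ω) → Ind (Zg b (a / 2) (3 * a)) g →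
      Ex (2 * Real.cos θ) D η (fun ω => g ω * Yu θ M τ f a (N ω) ω ^ 4) ≤
        C * Real.exp (-(4 * (Real.tan θ * (τ * NbP P (kp * a))))) * Ex (2 * Real.cos θ) D η g ∧
      Ex (2 * Real.cos θ) D η (fun ω => g ω * Yl θ M τ f b a (N ω) ω ^ 2) ≤
        C * Real.exp (2 * (Real.tan θ * (τ * NbP P (kp * a)))) * Ex (2 * Real.cos θ) D η g

end Vale.Agent.P167.N.H436.ND
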