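import Vale.Agent.P167.N.Kit
import Vale.Agent.P167.N.H562.Q.CB3
import Vale.Agent.P167.H436.ND.Zn

/-! generated from Vale.Agent.P167.H436.ND.Zn (q < 1 port) -/

set_option autoImplicit false

namespace Vale.Agent.P167.N.H436.ND

open Vale.Agent.P167.H436.ND Vale.Agent.P167.H436

open Finset MeasureTheory Vale.Agent.P167 Vale.Agent.P167.BR Vale.Agent.P167.FK

open Vale.Agent.P167.FKA (Loc Ind)

open Vale.Agent.P167.H562.QM (MajA FltQ OneC macro_B Nr)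

open Vale.Agent.P167.H166 (bxx mem_bxx)

variable {D : Finset (ℤ × ℤ)} {η : Cfg} {b : ℤ × ℤ} {R : ℤ} {pl pr : Bool}

/-- **(ZN)** -/
theorem s_zn {Q : ℝ} (hQ : Kit Q) (hR : RSW Q) : S_zn Q := by
  have hQ_pos := hQ.pos
  intro s
  obtain ⟨ε, C, ρ0, -, hC, -, h⟩ := Vale.Agent.P167.N.H562.QM.macro_B hQ hR (1 / 4) 5 s 0 (by norm_num) (by norm_num)
  have hQ0 : 0 < Q := by linarith
  refine ⟨max C 1, max 3 ⌈ρ0⌉, le_max_right _ _, fun b ρ σ hρ hρσ hσ => ?_⟩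
  have hρ3 : 3 ≤ ρ := (le_max_left _ _).trans hρ
  have hρ0 : ρ0 ≤ ρ := by
    have h1 : (⌈ρ0⌉ : ℤ) ≤ ρ := (le_max_right _ _).trans hρ
    exact (Int.le_ceil _).trans (by exact_mod_cast h1)
  obtain ⟨N, hN1, hN2, hN3⟩ := h (ρ : ℝ) hρ0 b (Zg b ρ σ) (fun v hv => by
    rw [mem_Zg] at hv
    have h1 : nm (v - b) ≤ 5 * ρ := by
      rw [nm_le_iff]
      simp only [Prod.fst_sub, Prod.snd_sub]
      omega
    exact_mod_cast h1) (fun i => i.elim0)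
  refine ⟨N, fun ω => ?_, fun r1 r2 h1 h2 D η R pl pr hF hO h3 => ⟨?_, ?_⟩⟩
  · have := hN2 ω
    rwa [show (1 / 4 : ℝ) * (ρ : ℝ) = (ρ : ℝ) / 4 by ring] at this
  · intro ω ω' hw hw'
    simp only
    rw [hN1 ω ω' fun v hv _ => ?_]
    by_cases hvD : v ∈ D
    · exact hw v ((near_zone hF h1 h2 h3 hρσ hv).2 hvD)
    · exact hw' v hvD
  · intro g hg0 hg
    have hg' := hN3 D η hO.good (fun y a ha hy => FltQ.oneC (FltO.fltQ hF hO) fun v hv =>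
      (near_zone hF h1 h2 h3 hρσ (hy v hv)).1) g hg0 fun ω ω' hw => hg ω ω' fun v hv =>
        hw v fun hv' => hv ((near_zone hF h1 h2 h3 hρσ hv'.2).2 hv'.1)
    exact hg'.trans (mul_le_mul_of_nonneg_right (le_max_left _ _)
      (FKA.Ex_nonneg hQ0 fun S _ => hg0 _))

end Vale.Agent.P167.N.H436.ND
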