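import Vale.Agent.P167.N.H436.ND.MR
import Vale.Agent.P167.N.H436.ND.Zn
import Vale.Agent.P167.N.H662.ND.SY
import Vale.Agent.P167.H436.ND.MRf

/-!
# P167, `0 < q < 1`, block Q-ND: the general theorem, closed form
-/

set_option autoImplicit false

namespace Vale.Agent.P167.N.H436.ND

open Vale.Agent.P167.H436.ND Vale.Agent.P167.H436

open MeasureTheory Vale.Agent.P167 Vale.Agent.P167.FK

open Vale.Agent.P167.H192.Q (SRSW)

open Vale.Agent.P167.H519 (IsLim)

theorem one_le_q {θ : ℝ} (h0 : 0 < θ) (h1 : Ang θ) : Kit (2 * Real.cos θ) := h1.kit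

/-- **(MR)**, closed form. -/
theorem s_mrF {θ : ℝ} {P : Measure Cfg} (h0 : 0 < θ) (h1 : Ang θ)
    (hR : RSW (2 * Real.cos θ)) (hS : SRSW (2 * Real.cos θ)) (hP : IsLim (2 * Real.cos θ) P) :
    S_MR θ P := by
  have h1_lt := h1.lt
  have hQ := one_le_q h0 h1
  exact s_mr hQ hR hS H640.ND.s_cls H135.ND.s_big H640.ND.s_gap H640.ND.s_stay
    (Vale.Agent.P167.N.H662.ND.s_Y h0 h1 hR hP) (H640.ND.s_top hQ.pos (s_zn hQ hR))

end Vale.Agent.P167.N.H436.ND
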