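import Vale.Agent.P167.N.H436.ND.Cut2
import Vale.Agent.P167.H436.ND.Jun

/-!
# P167, `0 < q < 1`, block Q-ND: `S_jun` from `S_jd` and `S_MR`
-/

set_option autoImplicit false

namespace Vale.Agent.P167.N.H436.ND

open Vale.Agent.P167.H436.ND Vale.Agent.P167.H436

open Finset MeasureTheory Vale.Agent.P167 Vale.Agent.P167.BR Vale.Agent.P167.FK

open Vale.Agent.P167.H192.TA (Xc)

open Vale.Agent.P167.QB (XG)

/-- **(JUN)** -/
theorem jun_of {θ : ℝ} {P : Measure Cfg} (h0 : 0 < θ) (h1 : Ang θ) (hjd : S_jd θ)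
    (hmr : S_MR θ P) : S_jun θ P := by
  have h1_lt := h1.lt
  have hpi := Real.pi_pos
  have hpi4 := Real.pi_le_four
  have h1_gt := h1.gt
  obtain ⟨J0, hJ0, hjd⟩ := hjd
  refine ⟨max J0 4, lt_max_of_lt_left hJ0, fun J hJ Cm hCm => ?_⟩
  have hJJ0 : J0 ≤ J := (le_max_left _ _).trans hJ
  have hJ4 : 4 ≤ J := (le_max_right _ _).trans hJ
  obtain ⟨v, vs, M, K1, a1, hv0, hv1, hv2, hv3, hM, hK1, hjd⟩ := hjd J hJJ0
  have hvs : 1 ≤ vs := hv0 ▸ hv2 0
  obtain ⟨K2, hK2, hmr⟩ := hmr (2 * J) vs M 1 Cm (by omega) hvs hM one_pos hCm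
  refine ⟨max K1 K2, le_max_of_le_left hK1, fun K hK => ?_⟩
  obtain ⟨c, C, a2, hc, hmr⟩ := hmr K ((le_max_right _ _).trans hK)
  refine ⟨c, C, max 0 (max a1 a2), hc, ?_⟩
  intro n q D k R η hW hk hη hO a ha haK hgr f hf
  have hp0 : (0 : ℤ) ≤ max 0 (max a1 a2) := le_max_left _ _
  have ha1 : Scl a1 K1 R a := ha.mono ((le_max_left _ _).trans (le_max_right _ _))
    ((le_max_left _ _).trans hK) hp0
  have ha2 : Scl a2 K R a := ha.mono ((le_max_right _ _).trans (le_max_right _ _)) le_rfl hp0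
  have haK1 : ∀ i, K1 * a i ≤ R := fun i =>
    (mul_le_mul_of_nonneg_right ((le_max_left _ _).trans hK) (hp0.trans (ha.pos i))).trans (haK i)
  have hτ : ∀ i, |tau2 J (Real.pi - 2 * θ) i| ≤ 1 := tau2_le (by
    have h4 : (4 : ℝ) ≤ J := by exact_mod_cast hJ4
    rw [abs_of_nonneg (by linarith)]
    linarith)
  refine hmr v hv0 hv1 hv2 (fun j hj => (hv3 j hj).1) n q D k R η false true hW hO a ha2 haK
    (fun i j hij hvj => hgr i j hij (hv3 j hvj).2) f hf _ hτ _ ?_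
  intro S _ N hN
  obtain ⟨g1, g2⟩ := hjd n q D k R hW hk a ha1 haK1 Cm f hf (cf D η S) N hN
  rw [one_mul, one_mul]
  exact ⟨g1, g2⟩

end Vale.Agent.P167.N.H436.ND
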