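import Vale.Agent.P167.N.Kit
import Vale.Agent.P167.N.H542.Q.FamB
import Vale.Agent.P167.H436.ND.Nda4

/-! generated from Vale.Agent.P167.H436.ND.Nda4 (q < 1 port) -/

set_option autoImplicit false

namespace Vale.Agent.P167.N.H436.ND

open Vale.Agent.P167.H436.ND Vale.Agent.P167.H436

open Set Metric Filter Topology MeasureTheory Vale.Agent.P167

open scoped ComplexConjugate ContDiff

open Vale.Agent.P167.BR (sites Flt hbox mem_sites_hbox)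

open Vale.Agent.P167.BVP (Flat Test)

open Vale.Agent.P167.CA (Dat cms fs cs)

open Vale.Agent.P167.H411.B7 (Shp scb)

open Vale.Agent.P167.H411.Q (fb VN BdA NDa)

open Vale.Agent.P167.H135 (Mov)

open Vale.Agent.P167.H640.ND (nor fin4_cases Mq poly_mov enc_mov dob_mov)

open Vale.Agent.P167.H718 (Dob Chordless)

open Vale.Agent.P167.E6 (IsPolygon Encloses)

open Vale.Agent.P167.QB (gB XG)

open Vale.Agent.P167.H542.Q (BD)

section

variable {S : Dat} {θ : ℝ} {P : Measure Cfg} {J : ℕ} {M : ℝ} {K : ℤ} {c C : ℝ} {a₀ : ℤ}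
  {X : BD S θ (gB θ)} {a : ℂ} {i : Fin 4} {r : ℝ} {l : ℕ → ℕ} {χ : ℂ → ℝ} {κ : ℝ}

/-- **(Q4) for the junction.** -/
theorem bdA_jun (h0 : 0 < θ) (h1 : Ang θ)
    (hβ : Real.cos (θ / 2 + gB θ) = Real.sin θ) (hK : 4 ≤ K) (hc0 : 0 < c)
    (hJ : JunP θ P J M K c C a₀) (hX : Jn X a i r X.k) (hk : ∀ᶠ n in X.L, 0 < X.k n)
    (hχ : Sh0 χ) (hM : ∀ u, χ u ≤ M) (hr : 0 < r) (hκ : κ = 1 / ((K : ℝ) + 1)) :
    BdA (Real.pi - 2 * θ) (Vale.Agent.P167.N.H542.Q.BD.famB X h0 h1 hβ) (ms J κ χ) (nor i) a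
      (fb (ms J κ χ) (nor i) a (r / (16 * K))) (Nc θ P J κ (r / (16 * K))) := by
  have h1_lt := h1.lt
  have hK' : (4 : ℝ) ≤ K := by exact_mod_cast hK
  have hκ0 : 0 < κ := by rw [hκ]; positivity
  have hκ1 : κ ≤ 1 := by rw [hκ, div_le_one (by positivity)]; linarith
  have hη₀ : 0 < r / (16 * K) := by positivity
  have hη₀r : r / (16 * K) < r := by
    rw [div_lt_iff₀ (by positivity)]
    nlinarith
  have hQ : 0 < 2 * Real.cos θ := by
    have := Real.pi_pos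
    have := Real.cos_pos_of_mem_Ioo (x := θ) ⟨by linarith, by linarith⟩
    linarith
  refine ⟨c, C, r / (16 * K) * κ ^ J, hc0, by positivity, fun η hη hη2 => ?_⟩
  have hev := ev_scl hK hr hκ hη hη2.le a₀
  show ∀ᶠ n in X.L, _
  filter_upwards [X.le hev, hX.win, hk, hX.ch, X.poly, X.dob, hX.near,
    X.le (eventually_gt_atTop 0)] with n ⟨g0, g1, g2, g3, g4⟩ hw hk' hch hpo hdo hnb hn
  have hWin := hw (⌊r * n / 4⌋ - 10) (by omega) (by
    push_cast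
    linarith [Int.floor_le (r * n / 4)])
  unfold VN Nc
  rw [Vale.Agent.P167.N.H542.Q.BD.famB_V, cms_ms S hX.flat hχ hκ0 hκ1 hη hη2.le hη₀r, ← Ex0_mul]
  refine jun_M hQ hJ (mI i) hch hpo hWin g0 hk' hdo g2 g3 g4 fun j => ?_
  refine bp_fb S hX.flat hχ hM (esc_pos hκ0 hη hη₀ j) ?_ hn hnb rfl (g1 j)
  exact lt_of_le_of_lt (esc_le_top hκ0 hκ1 hη hη2.le j) hη₀r

/-- **(Q4c) for the free side.** -/
theorem bdA_fre (h0 : 0 < θ) (h1 : Ang θ)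
    (hβ : Real.cos (θ / 2 + gB θ) = Real.sin θ) (hK : 4 ≤ K) (hc0 : 0 < c)
    (hJ : FreP θ P J M K c C a₀) (hX : Jn X a i r l) (hk : ∀ᶠ n in X.L, X.k n = X.N n)
    (hχ : Sh0 χ) (hM : ∀ u, χ u ≤ M) (hr : 0 < r) (hκ : κ = 1 / ((K : ℝ) + 1)) :
    BdA (-θ) (Vale.Agent.P167.N.H542.Q.BD.famB X h0 h1 hβ) (ms J κ χ) (nor i) a
      (fb (ms J κ χ) (nor i) a (r / (16 * K))) (Nc θ P J κ (r / (16 * K))) := by
  have h1_lt := h1.lt
  have hK' : (4 : ℝ) ≤ K := by exact_mod_cast hK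
  have hκ0 : 0 < κ := by rw [hκ]; positivity
  have hκ1 : κ ≤ 1 := by rw [hκ, div_le_one (by positivity)]; linarith
  have hη₀ : 0 < r / (16 * K) := by positivity
  have hη₀r : r / (16 * K) < r := by
    rw [div_lt_iff₀ (by positivity)]
    nlinarith
  have hQ : 0 < 2 * Real.cos θ := by
    have := Real.pi_pos
    have := Real.cos_pos_of_mem_Ioo (x := θ) ⟨by linarith, by linarith⟩
    linarith
  refine ⟨c, C, r / (16 * K) * κ ^ J, hc0, by positivity, fun η hη hη2 => ?_⟩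
  have hev := ev_scl hK hr hκ hη hη2.le a₀
  show ∀ᶠ n in X.L, _
  filter_upwards [X.le hev, hX.win, hk, hX.ch, X.poly, X.dob, hX.near,
    X.le (eventually_gt_atTop 0)] with n ⟨g0, g1, g2, g3, g4⟩ hw hk' hch hpo hdo hnb hn
  have hWin := hw (⌊r * n / 4⌋ - 10 - 1) (by omega) (by
    push_cast
    linarith [Int.floor_le (r * n / 4)])
  unfold VN Nc
  rw [Vale.Agent.P167.N.H542.Q.BD.famB_V, cms_ms S hX.flat hχ hκ0 hκ1 hη hη2.le hη₀r, ← Ex0_mul, hk']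
  rw [hk'] at hdo
  refine fre_M hQ hJ (mI i) hch hpo hWin (by omega) hdo g2 g3 g4 fun j => ?_
  refine bp_fb S hX.flat hχ hM (esc_pos hκ0 hη hη₀ j) ?_ hn hnb rfl (g1 j)
  exact lt_of_le_of_lt (esc_le_top hκ0 hκ1 hη hη2.le j) hη₀r

end

/-- **(NDa)** for two families of the same polygons. -/
theorem nda_of {S : Dat} {θ : ℝ} {P : Measure Cfg} (h0 : 0 < θ) (h1 : Ang θ)
    (hβ : Real.cos (θ / 2 + gB θ) = Real.sin θ) (hj : S_jun θ P) (hf : S_fre θ P)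
    {X Y : BD S θ (gB θ)} {a ν : ℂ} {i : Fin 4} (hi : ν = nor i) {r : ℝ} (hr : 0 < r) {l : ℕ → ℕ}
    (hX : Jn X a i r X.k) (hk : ∀ᶠ n in X.L, 0 < X.k n)
    (hY : Jn Y a i r l) (hkY : ∀ᶠ n in Y.L, Y.k n = Y.N n) :
    NDa θ (Vale.Agent.P167.N.H542.Q.BD.famB X h0 h1 hβ) (Vale.Agent.P167.N.H542.Q.BD.famB Y h0 h1 hβ) a ν := by
  have h1_lt := h1.lt
  subst hi
  obtain ⟨J1, hJ1, g1⟩ := hj
  obtain ⟨J2, hJ2, g2⟩ := hf
  obtain ⟨χ, hχ⟩ := exists_sh0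
  obtain ⟨M, hM0, hM⟩ : ∃ M : ℝ, 0 < M ∧ ∀ u, χ u ≤ M := by
    obtain ⟨M, hM⟩ := hχ.smooth.continuous.bounded_above_of_compact_support hχ.shp.compact
    refine ⟨max M 1, by positivity, fun u => ?_⟩
    exact (le_abs_self _).trans ((hM u).trans (le_max_left _ _))
  obtain ⟨K1, hK1, g1'⟩ := g1 (max J1 J2) (le_max_left _ _) M hM0
  obtain ⟨K2, hK2, g2'⟩ := g2 (max J1 J2) (le_max_right _ _) M hM0
  obtain ⟨c1, C1, a1, hc1, hJun⟩ := g1' (max K1 K2) (le_max_left _ _)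
  obtain ⟨c2, C2, a2, hc2, hFre⟩ := g2' (max K1 K2) (le_max_right _ _)
  have hK : 4 ≤ max K1 K2 := hK1.trans (le_max_left _ _)
  have hK' : (4 : ℝ) ≤ ((max K1 K2 : ℤ) : ℝ) := by exact_mod_cast hK
  have hη₀r : r / (16 * ((max K1 K2 : ℤ) : ℝ)) < r := by
    rw [div_lt_iff₀ (by positivity)]
    nlinarith
  have hS := ms_shp hχ (J := max J1 J2) (by omega) (κ := 1 / (((max K1 K2 : ℤ) : ℝ) + 1))
    (by positivity) (by rw [div_le_one (by positivity)]; linarith)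
  have hb := H411.Q.fb_bp hS hX.flat (η := r / (16 * ((max K1 K2 : ℤ) : ℝ))) (by positivity) hη₀r
  exact ⟨_, _, _, hS, hb.test, hb.mass,
    bdA_jun h0 h1 hβ hK hc1 hJun hX hk hχ hM hr rfl,
    bdA_fre h0 h1 hβ hK hc2 hFre hY hkY hχ hM hr rfl⟩

end Vale.Agent.P167.N.H436.ND
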