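import Vale.Agent.P167.N.KitQ
import Vale.Agent.P167.N.H208.ND.FP
import Vale.Agent.P167.N.H208.ND.JP
import Vale.Agent.P167.N.H436.ND.Nda6
import Vale.Agent.P167.N.H542.Q.FamB
import Vale.Agent.P167.N.H662.L.Lay7
import Vale.Agent.P167.H436.ND.Nda8

/-! generated from Vale.Agent.P167.H436.ND.Nda8 (q < 1 port) -/

set_option autoImplicit false

namespace Vale.Agent.P167.N.H436.ND

open Vale.Agent.P167.H436.ND Vale.Agent.P167.H436

open Filter MeasureTheory Vale.Agent.P167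

open Vale.Agent.P167.CA (Dat)

open Vale.Agent.P167.QB (gB)

open Vale.Agent.P167.H825.Q (Bc bdQ)

open Vale.Agent.P167.H411.Q (NDa bpt nrm)

/-- **[Q-ND] (Q4) = (NDa)**, no hypothesis: the charge `π - 2 θ` at the junction (Dobrushin) and the
charge `- θ` at the same point (free). -/
theorem nda_fin {θ : ℝ} (h0 : 0 < θ) (h1 : Ang θ)
    (hβ : Real.cos (θ / 2 + gB θ) = Real.sin θ) (S : Dat) {i : ℕ} {ta : ℝ}
    (hin : (Bc.dob i ta).In S.l) (hfr : Bc.free.In S.l) {L : Filter ℕ} (hL : L ≤ atTop)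
    (hc : L.IsCountablyGenerated) :
    NDa θ ((Vale.Agent.P167.N.H542.Q.BD.famB (bdQ S θ (gB θ) (.dob i ta) hin L hL hc)) h0 h1 hβ)
      ((Vale.Agent.P167.N.H542.Q.BD.famB (bdQ S θ (gB θ) .free hfr L hL hc)) h0 h1 hβ) (bpt S (i + ta)) (nrm S i) := by
  have h1_lt := h1.lt
  have h2 : Kit (2 * Real.cos θ) := h1.kit
  have hR := h2.rsw
  have hS := h2.srsw
  obtain ⟨P, hP⟩ := Vale.Agent.P167.N.H662.L.exists_isLim h2 hR
  exact nda_tip h0 h1 hβ (Vale.Agent.P167.N.H208.ND.s_jun h0 h1 hR hS hP)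
    (Vale.Agent.P167.N.H208.ND.s_fre h0 h1 hR hS hP) hin hfr hL hc

end Vale.Agent.P167.N.H436.ND
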