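import Vale.Agent.P167.N.Kit
import Vale.Agent.P167.H436.ND.Rec

/-! generated from Vale.Agent.P167.H436.ND.Rec (q < 1 port) -/

set_option autoImplicit false

namespace Vale.Agent.P167.N.H436.ND

open Vale.Agent.P167.H436.ND Vale.Agent.P167.H436

open Finset MeasureTheory Vale.Agent.P167 Vale.Agent.P167.BR Vale.Agent.P167.FK

open Vale.Agent.P167.FKA (Loc Ind)

open Vale.Agent.P167.H562.QM (MajA ex_cs)

variable {n m : ℕ} {q : ZMod n → ℤ × ℤ} {D : Finset (ℤ × ℤ)} {v : ℕ → ℝ} {R : ℤ}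
  {a : Fin m → ℤ} {S s l : ℕ} {η : Cfg} {pl pr : Bool} {Q : ℝ}

/-- **The counts at one level.** -/
theorem lev_mom (hQ : Kit Q) (hzn : S_zn Q) (x : ℝ) (m : ℕ) : ∃ (M : ℝ) (r₀ : ℤ), 1 ≤ M ∧ 1 ≤ r₀ ∧
    ∀ (S : ℕ) (R : ℤ) (a : Fin m → ℤ), Lok S R a → (∀ i, r₀ * 4 ^ (S + 1) ≤ a i) →
    ∀ (D : Finset (ℤ × ℤ)) (b : ℤ × ℤ) (η : Cfg) (pl pr : Bool), Flt D b R → FltO D η b R pl pr →
    ∀ s ≤ S, ∃ N : Fin m × Bool → Cfg → ℕ, (∀ p ω, MajA (ctZ b a s p) (ctD a s p) ω (N p ω)) ∧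
      ∀ g : Cfg → ℝ, (∀ ω, 0 ≤ g ω) → Ind (UU b a (s + 2)) g →
        Ex Q D η (fun ω => g ω * Real.exp (x * ∑ p, (N p ω : ℝ))) ≤ M * Ex Q D η g := by
  have hQ_pos := hQ.pos
  classical
  have hQ0 : 0 < Q := by linarith
  obtain ⟨M0, r₀, hM0, h⟩ := hzn x
  refine ⟨M0 ^ (Finset.univ : Finset (Fin m × Bool)).card, max r₀ 1, one_le_pow₀ hM0,
    le_max_right _ _, fun S R a hL ha D b η pl pr hF hO s hs => ?_⟩
  have hr1 : ∀ i, r₀ ≤ rh a (s + 1) i := by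
    intro i
    unfold rh
    rw [Int.le_ediv_iff_mul_le (by positivity)]
    have h1 : (4 : ℤ) ^ (s + 1) ≤ 4 ^ (S + 1) := pow_le_pow_right₀ (by norm_num) (by omega)
    have h2 := ha i
    have h3 : r₀ * 4 ^ (s + 1) ≤ max r₀ 1 * 4 ^ (s + 1) :=
      mul_le_mul_of_nonneg_right (le_max_left _ _) (by positivity)
    have h4 : max r₀ 1 * 4 ^ (s + 1) ≤ max r₀ 1 * 4 ^ (S + 1) :=
      mul_le_mul_of_nonneg_left h1 (by have := le_max_right r₀ 1; linarith)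
    linarith
  have hr2 : ∀ i, r₀ ≤ sg' a s i := by
    intro i
    have h1 := hr1 i
    have h2 := hL.rh_le (s := s + 1) i
    have h3 := hL.sg_ge (s := s) i
    have h4 := hL.a_pos i
    omega
  have key : ∀ p : Fin m × Bool, ∃ N : Cfg → ℕ, (∀ ω, MajA (ctZ b a s p) (ctD a s p) ω (N ω)) ∧
      Rd D (rdS b a s p) (fun ω => Real.exp (x * N ω)) ∧
      ∀ g : Cfg → ℝ, (∀ ω, 0 ≤ g ω) → Ind (rdS b a s p) g →
        Ex Q D η (fun ω => g ω * Real.exp (x * N ω)) ≤ M0 * Ex Q D η g := by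
    rintro ⟨i, c⟩
    have ha4 := hL.a_pos i
    have hz := (hL.zns (s := s + 2) (by omega)).top i
    have e1 : rh a (s + 1) i = rh a s i / 4 := rh_succ i
    have e2 : rh a (s + 2) i = rh a (s + 1) i / 4 := rh_succ i
    have e3 : sg' a (s + 1) i = 4 * sg' a s i := sg_succ i
    have e4 : sg' a (s + 2) i = 4 * sg' a (s + 1) i := sg_succ i
    have h1 := hL.rh_nonneg (s := s) i
    have h2 := hL.sg_ge (s := s) i
    have h3 := hL.rh_le (s := s) i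
    have h5 := hr1 i
    have h6 := hr2 i
    cases c
    · obtain ⟨N, hN1, hN2⟩ := h b (rh a (s + 1) i) (rh a s i) h5 (by omega) (by omega)
      obtain ⟨k1, k2⟩ := hN2 (rh a (s + 2) i) (a i + a i / 2) (by omega) (by omega) D η R pl pr hF hO
        (by omega)
      exact ⟨N, hN1, k1, k2⟩
    · obtain ⟨N, hN1, hN2⟩ := h b (sg' a s i) (sg' a (s + 1) i) h6 (by omega) (by omega)
      obtain ⟨k1, k2⟩ := hN2 (a i + a i / 2) (sg' a (s + 2) i) (by omega) (by omega) D η R pl pr hF hO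
        (by omega)
      exact ⟨N, hN1, k1, k2⟩
  choose N hN1 hN2 hN3 using key
  refine ⟨N, hN1, fun g hg0 hg => ?_⟩
  have hsubU : ∀ p : Fin m × Bool, rdS b a s p ⊆ UU b a (s + 2) := fun p v hv =>
    mem_biUnion.2 ⟨p.1, mem_univ _, rdS_sub hL b p hv⟩
  have h1 := prod_ind (Q := Q) (D := D) (η := η) (Finset.univ : Finset (Fin m × Bool))
    (F := fun p ω => Real.exp (x * N p ω)) (S := rdS b a s) (c := fun _ => M0)
    (fun _ _ => by linarith) (fun p _ => (hsubU p).trans (hL.UU_sub hF (by omega)))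
    (fun p _ ω => (Real.exp_pos _).le) (fun p _ => hN2 p)
    (fun p _ p' _ hp => rdS_disj hL hs b hp) (fun p _ G hG0 hG => hN3 p G hG0 hG) hg0
    (fun p _ ω ω' hw => hg ω ω' fun v hv => hw v fun hv' => hv (hsubU p hv'))
  rw [Finset.prod_const] at h1
  refine le_trans (le_of_eq ?_) h1
  refine FKA.Ex_congr fun S _ => ?_
  rw [← Real.exp_sum, Finset.mul_sum]

/-- **The recursion.** -/
theorem ref_abs (hQ : Kit Q) (hcls : S_cls) (hbig : S_big) (hzn : S_zn Q) (m : ℕ) {vs : ℝ} (hvs : 1 ≤ vs) :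
    ∃ (M : ℝ) (r₀ : ℤ), 1 ≤ M ∧ 1 ≤ r₀ ∧
    ∀ (S : ℕ) (R : ℤ) (a : Fin m → ℤ), Lok S R a → (∀ i, r₀ * 4 ^ (S + 1) ≤ a i) →
    ∀ (n : ℕ) (q : ZMod n → ℤ × ℤ) (D : Finset (ℤ × ℤ)) (l : ℕ) (η : Cfg) (pl pr : Bool),
      Win q D l R → FltO D η (q l) R pl pr →
    ∀ v : ℕ → ℝ, v 0 = 1 → (∀ j, 1 ≤ v j) → (∀ j, v j ≤ vs) → ∀ B : ℝ,
      Ex Q D η (fun ω => Vc v q D (zf (q l) a) (UU (q l) a 0) ω ^ 2) ≤ B →
    ∀ (F : Cfg → ℝ) (c : ℝ), (∀ ω, 0 ≤ F ω) → 0 ≤ c →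
      Ex Q D η (fun ω => Vc v q D (zf (q l) a) (UU (q l) a 1) ω * F ω ^ 2) ≤
        c ^ 2 * Ex Q D η (Vc v q D (zf (q l) a) (UU (q l) a 1)) →
      Ex Q D η (fun ω => Vc v q D (zf (q l) a) (UU (q l) a 0) ω * F ω) ≤
        Real.sqrt (M * (M * B) ^ ((1 / 2 : ℝ) ^ S)) * c *
          Ex Q D η (Vc v q D (zf (q l) a) (UU (q l) a 0)) := by
  have hQ_pos := hQ.pos
  classical
  have hQ0 : 0 < Q := by linarith
  obtain ⟨M, r₀, hM, hr₀, hlev⟩ := lev_mom hQ hzn (4 * Real.log vs) m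
  refine ⟨M, r₀, hM, hr₀, fun S R a hL ha n q D l η pl pr hW hO v hv0 hv1 hv2 B hB F c hF0 hc hF => ?_⟩
  have hlog : 0 ≤ Real.log vs := Real.log_nonneg hvs
  set V : ℕ → Cfg → ℝ := fun s => Vc v q D (zf (q l) a) (UU (q l) a s) with hV
  have hV1 : ∀ s ω, 1 ≤ V s ω := fun s ω => Vc_one_le hv1
  have hV0 : ∀ s ω, 0 ≤ V s ω := fun s ω => zero_le_one.trans (hV1 s ω)
  have hE1 : ∀ s, 1 ≤ Ex Q D η (V s) := by
    intro s
    calc (1 : ℝ) = Ex Q D η (fun _ => 1) := (FKA.Ex_const hQ0 1).symm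
      _ ≤ _ := FKA.Ex_mono hQ0 fun _ _ => hV1 s _
  have hE0 : ∀ s, 0 < Ex Q D η (V s) := fun s => by linarith [hE1 s]
  have hanti : ∀ s, Ex Q D η (V (s + 1)) ≤ Ex Q D η (V s) := fun s =>
    FKA.Ex_mono hQ0 fun _ _ => Vc_anti hv1 hL.UU_mono
  -- the counts
  have hN : ∀ s ≤ S, ∃ N : Fin m × Bool → Cfg → ℕ,
      (∀ p ω, MajA (ctZ (q l) a s p) (ctD a s p) ω (N p ω)) ∧
      ∀ g : Cfg → ℝ, (∀ ω, 0 ≤ g ω) → Ind (UU (q l) a (s + 2)) g →
        Ex Q D η (fun ω => g ω * Real.exp (4 * Real.log vs * ∑ p, (N p ω : ℝ))) ≤ M * Ex Q D η g :=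
    fun s hs => hlev S R a hL ha D (q l) η pl pr hW.flat hO s hs
  choose! N hN1 hN2 using hN
  set T : ℕ → Cfg → ℝ := fun s ω => ∑ p, (N s p ω : ℝ) with hT
  have hT0 : ∀ s ω, 0 ≤ T s ω := fun s ω => Finset.sum_nonneg fun _ _ => Nat.cast_nonneg _
  set H : ℕ → Cfg → ℝ := fun s ω => Real.exp (Real.log vs * T s ω) with hH
  have hH0 : ∀ s ω, 0 < H s ω := fun s ω => Real.exp_pos _
  have hVH : ∀ s ≤ S, ∀ ω, V s ω ≤ V (s + 1) ω * H s ω := fun s hs ω =>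
    Vc_lev hcls hbig hW hL hs hv0 hv1 hvs hv2 (hN1 s hs) ω
  have hH4 : ∀ s ω, Real.exp (4 * Real.log vs * T s ω) = (H s ω ^ 2) ^ 2 := by
    intro s ω
    simp only [hH]
    rw [← pow_mul, ← Real.exp_nat_mul]
    congr 1
    push_cast
    ring
  set w : ℕ → ℝ := fun s => Ex Q D η (fun ω => V (s + 1) ω * H s ω ^ 2) / Ex Q D η (V (s + 1)) with hw
  have hw0 : ∀ s, 0 ≤ w s := fun s => div_nonneg
    (FKA.Ex_nonneg hQ0 fun _ _ => mul_nonneg (hV0 _ _) (sq_nonneg _)) (hE0 _).le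
  -- the step
  have hstep : ∀ s < S, w s ^ 2 ≤ M * w (s + 1) := by
    intro s hs
    have h1 : Ex Q D η (fun ω => V (s + 1) ω * H s ω ^ 2) ≤
        Ex Q D η (fun ω => V (s + 2) ω * (H (s + 1) ω * H s ω ^ 2)) := by
      refine FKA.Ex_mono hQ0 fun S' _ => ?_
      have h2 := hVH (s + 1) (by omega) (cf D η S')
      have h3 := mul_le_mul_of_nonneg_right h2 (sq_nonneg (H s (cf D η S')))
      linarith
    have h2 : Ex Q D η (fun ω => V (s + 2) ω * H (s + 1) ω ^ 2) ≤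
        Real.sqrt (w (s + 1)) ^ 2 * Ex Q D η (V (s + 2)) := by
      rw [Real.sq_sqrt (hw0 _), hw]
      simp only
      rw [div_mul_cancel₀ _ (hE0 _).ne']
    have h3 : Ex Q D η (fun ω => V (s + 2) ω * (H s ω ^ 2) ^ 2) ≤
        Real.sqrt M ^ 2 * Ex Q D η (V (s + 2)) := by
      rw [Real.sq_sqrt (by linarith)]
      have h4 := hN2 s (by omega) (V (s + 2)) (hV0 _) (Vc_ind (hL.UU_sub hW.flat (by omega)))
      refine le_trans (le_of_eq ?_) h4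
      exact FKA.Ex_congr fun S' _ => by rw [← hH4]
    have h4 := ex_cs hQ0 (hV0 (s + 2)) (Real.sqrt_nonneg _) (Real.sqrt_nonneg _) (hE0 (s + 2)).le h2 h3
    have h5 : w s ≤ Real.sqrt (w (s + 1)) * Real.sqrt M := by
      rw [hw]
      simp only
      rw [div_le_iff₀ (hE0 _)]
      refine h1.trans (h4.trans ?_)
      exact mul_le_mul_of_nonneg_left (hanti (s + 1)) (by positivity)
    calc w s ^ 2 ≤ (Real.sqrt (w (s + 1)) * Real.sqrt M) ^ 2 := by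
          exact pow_le_pow_left₀ (hw0 s) h5 2
      _ = M * w (s + 1) := by
          rw [mul_pow, Real.sq_sqrt (hw0 _), Real.sq_sqrt (by linarith)]
          ring
  -- the top
  have hV0sq : 1 ≤ B := by
    refine le_trans ?_ hB
    calc (1 : ℝ) = Ex Q D η (fun _ => 1) := (FKA.Ex_const hQ0 1).symm
      _ ≤ _ := FKA.Ex_mono hQ0 fun _ _ => one_le_pow₀ (hV1 0 _)
  have hVle : ∀ s ω, V s ω ≤ V 0 ω := by
    intro s ω
    induction s with
    | zero => exact le_rfl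
    | succ s ih => exact (Vc_anti hv1 hL.UU_mono).trans ih
  have hMB : 1 ≤ M * B := by nlinarith
  have htop : w S ≤ M * B := by
    have h1 : Ex Q D η (fun ω => (1 : ℝ) * V (S + 1) ω ^ 2) ≤ Real.sqrt B ^ 2 * 1 := by
      rw [Real.sq_sqrt (by linarith), mul_one]
      refine (FKA.Ex_mono hQ0 fun S' _ => ?_).trans hB
      rw [one_mul]
      exact pow_le_pow_left₀ (hV0 _ _) (hVle _ _) 2
    have h2 : Ex Q D η (fun ω => (1 : ℝ) * (H S ω ^ 2) ^ 2) ≤ Real.sqrt M ^ 2 * 1 := by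
      rw [Real.sq_sqrt (by linarith), mul_one]
      have h4 := hN2 S le_rfl (fun _ => 1) (fun _ => zero_le_one) (fun _ _ _ => rfl)
      rw [FKA.Ex_const hQ0, mul_one] at h4
      refine le_trans (le_of_eq ?_) h4
      exact FKA.Ex_congr fun S' _ => by rw [← hH4]
    have h3 := ex_cs hQ0 (fun _ => zero_le_one) (Real.sqrt_nonneg _) (Real.sqrt_nonneg _)
      (zero_le_one (α := ℝ)) h1 h2
    simp only [one_mul, mul_one] at h3
    have h4 : Real.sqrt B * Real.sqrt M ≤ M * B := by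
      rw [← Real.sqrt_mul (by linarith), Real.sqrt_le_iff]
      constructor
      · positivity
      · nlinarith
    rw [hw]
    simp only
    rw [div_le_iff₀ (hE0 _)]
    have h5 := hE1 (S + 1)
    nlinarith [h3.trans h4]
  have hw00 := rec_bound hM hMB S htop hstep
  -- conclusion
  set Γ : ℝ := M * (M * B) ^ ((1 / 2 : ℝ) ^ S) with hΓ
  have h1 : Ex Q D η (fun ω => V 0 ω * F ω) ≤ Ex Q D η (fun ω => V 1 ω * (H 0 ω * F ω)) := by
    refine FKA.Ex_mono hQ0 fun S' _ => ?_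
    have h2 := mul_le_mul_of_nonneg_right (hVH 0 (by omega) (cf D η S')) (hF0 (cf D η S'))
    linarith
  have h2 : Ex Q D η (fun ω => V 1 ω * H 0 ω ^ 2) ≤ Real.sqrt Γ ^ 2 * Ex Q D η (V 1) := by
    rw [Real.sq_sqrt ((hw0 0).trans hw00)]
    have h3 : Ex Q D η (fun ω => V 1 ω * H 0 ω ^ 2) = w 0 * Ex Q D η (V 1) := by
      rw [hw]
      simp only
      rw [div_mul_cancel₀ _ (hE0 _).ne']
    rw [h3]
    exact mul_le_mul_of_nonneg_right hw00 (hE0 _).le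
  have h3 := ex_cs hQ0 (hV0 1) (Real.sqrt_nonneg _) hc (hE0 1).le h2 hF
  exact h1.trans (h3.trans (mul_le_mul_of_nonneg_left (hanti 0) (by positivity)))

end Vale.Agent.P167.N.H436.ND
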