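import Vale.Agent.P167.N.H436.ND.Cut2
import Vale.Agent.P167.N.H436.ND.Bad
import Vale.Agent.P167.N.H436.ND.Rec
import Vale.Agent.P167.N.H436.ND.Zn
import Vale.Agent.P167.H436.ND.MR

/-!
# P167, `0 < q < 1`, block Q-ND: the general theorem (`s_mr`)
-/

set_option autoImplicit false

namespace Vale.Agent.P167.N.H436.ND

open Vale.Agent.P167.H436.ND Vale.Agent.P167.H436

open Finset MeasureTheory Vale.Agent.P167 Vale.Agent.P167.BR Vale.Agent.P167.FK

open Vale.Agent.P167.FKA (Loc Ind)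

open Vale.Agent.P167.H562.QM (MajA ex_cs NbP)

open Vale.Agent.P167.H192.Q (SRSW)

open Vale.Agent.P167.H192.TA (Xc)

/-- **(MR)** -/
theorem s_mr {θ : ℝ} {P : Measure Cfg} (hQ : Kit (2 * Real.cos θ)) (hR : RSW (2 * Real.cos θ))
    (hS : SRSW (2 * Real.cos θ)) (hcls : S_cls) (hbig : S_big) (hgap : S_gap) (hstay : S_stay)
    (hY : S_Y θ P) (htop : S_top (2 * Real.cos θ)) : S_MR θ P := by
  have hQ_pos := hQ.pos
  classical
  intro m vs M C1 Cm hm hvs hM hC1 hCm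
  have hQ0 : 0 < 2 * Real.cos θ := by linarith
  obtain ⟨CY, aY, hCY, hY⟩ := hY Cm M hCm hM
  obtain ⟨Mr, r₀, hMr, hr₀, href⟩ := ref_abs hQ hcls hbig (s_zn hQ hR) m hvs
  obtain ⟨B, hB, htop⟩ := htop m vs hvs
  obtain ⟨α, CX, hα, hCX, hbad⟩ := bad_all hQ hS hgap hstay m
  set Γ : ℝ := Real.sqrt (Mr * (Mr * B)) with hΓ
  have hΓ0 : 0 < Γ := Real.sqrt_pos.2 (by positivity)
  set C2 : ℝ := Γ * Real.sqrt (CY ^ m) with hC2
  have hC20 : 0 < C2 := mul_pos hΓ0 (Real.sqrt_pos.2 (by positivity))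
  set δ : ℝ := min (1 / 2) ((1 / (8 * C1 ^ 2 * C2)) ^ 2 / C2) with hδ
  have hδ0 : 0 < δ := lt_min (by norm_num) (by positivity)
  obtain ⟨K1, hK1, hK1'⟩ := exists_K hCX hδ0 hα
  refine ⟨max (2 ^ 64) K1, by norm_num, fun K hK => ?_⟩
  have hK64 : (2 : ℤ) ^ 64 ≤ K := (le_max_left _ _).trans hK
  have hKK1 : K1 ≤ K := (le_max_right _ _).trans hK
  obtain ⟨S, hS1, hS2⟩ := exists_lev hK64
  obtain ⟨at', htop⟩ := htop K (by linarith [hK64, show (16 : ℤ) ≤ 2 ^ 64 by norm_num])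
  set L := Nat.log 2 K.toNat with hL
  refine ⟨1 / (8 * C1 * C2), C1 * Real.sqrt C2 * B ^ (L + 1),
    max (max (4 ^ (S + 4)) (r₀ * 4 ^ (S + 1))) (max aY at'), by positivity, ?_⟩
  intro v hv0 hv1 hv2 hvm n q D l R η pl pr hW hO a hScl haK hgr f hf τ hτ X hX
  -- the scales
  have hp1 : ∀ i, (4 : ℤ) ^ (S + 4) ≤ a i := fun i =>
    ((le_max_left _ _).trans (le_max_left _ _)).trans (hScl.pos i)
  have hp2 : ∀ i, r₀ * 4 ^ (S + 1) ≤ a i := fun i =>
    ((le_max_right _ _).trans (le_max_left _ _)).trans (hScl.pos i)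
  have hp3 : ∀ i, aY ≤ a i := fun i => ((le_max_left _ _).trans (le_max_right _ _)).trans (hScl.pos i)
  have hp4 : ∀ i, at' ≤ a i := fun i => ((le_max_right _ _).trans (le_max_right _ _)).trans (hScl.pos i)
  have hp0 : ∀ i, 0 ≤ a i := fun i => le_trans (by positivity) (hp1 i)
  have h48 : (4 : ℤ) ^ (S + 4) ≤ K := (pow_le_pow_right₀ (by norm_num) (by omega)).trans hS2
  have hLok : Lok S R a :=
    { pos := hp1
      step := fun i j hij => (mul_le_mul_of_nonneg_right hS2 (hp0 i)).trans (hScl.step i j hij)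
      top := fun i => (mul_le_mul_of_nonneg_right h48 (hp0 i)).trans (haK i) }
  have hScl' : Scl at' K R a := ⟨hp4, hScl.step, hScl.top⟩
  -- the reference weight
  set b := q l with hb
  set V : Cfg → ℝ := Vc v q D (zf b a) (UU b a 0) with hV
  set V1 : Cfg → ℝ := Vc v q D (zf b a) (UU b a 1) with hV1
  have hV1le : ∀ ω, 1 ≤ V ω := fun ω => Vc_one_le hv1
  have hV0 : ∀ ω, 0 ≤ V ω := fun ω => zero_le_one.trans (hV1le ω)
  set A : ℝ := Ex (2 * Real.cos θ) D η V with hA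
  have hA1 : 1 ≤ A := by
    calc (1 : ℝ) = Ex (2 * Real.cos θ) D η (fun _ => 1) := (FKA.Ex_const hQ0 1).symm
      _ ≤ _ := FKA.Ex_mono hQ0 fun _ _ => hV1le _
  have htop' := htop v hv0 hv1 hv2 hvm n q D l R η pl pr hW hO a hScl' haK hgr
  have hAle : A ≤ B ^ (L + 1) := by
    refine le_trans (FKA.Ex_mono hQ0 fun S _ => ?_) htop'
    have := hV1le (cf D η S)
    show V _ ≤ V _ ^ 2
    nlinarith
  -- the moments
  have hYi := fun i => hY b (a i) (hp3 i)
  choose N hN1 hN2 using hYi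
  have h8 : ∀ i, 8 * a i ≤ R := hScl.top
  have hYi2 := fun i => hN2 i D η R pl pr hW.flat hO (h8 i) (f i) (hf i) (τ i) (hτ i)
  set ga : Fin m → ℝ := fun i => Real.exp (-(Real.tan θ * (τ i * NbP P (kp * a i)))) with hga
  set g : ℝ := ∏ i, ga i with hg
  have hgE : g = Real.exp (-Ex0 θ P τ a) := by
    rw [hg, hga]
    simp only
    rw [← Real.exp_sum]
    congr 1
    unfold Ex0
    rw [Finset.sum_neg_distrib, Finset.mul_sum]
  have hg0 : 0 < g := by rw [hgE]; exact Real.exp_pos _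
  set Zs : Fin m → Finset (ℤ × ℤ) := fun i => Zg b (a i / 2) (3 * a i) with hZs
  have hZD : ∀ i, Zs i ⊆ D := fun i => Zg_sub hW.flat (by
    have := h8 i; have := hLok.a_pos i; omega)
  have hZU : ∀ i, Zs i ⊆ UU b a 1 := by
    intro i w hw
    refine mem_biUnion.2 ⟨i, mem_univ _, Zg_mono ?_ ?_ hw⟩
    · rw [rh_succ, rh_zero]; have := hLok.a_pos i; omega
    · rw [sg_succ, sg_zero]; have := hLok.a_pos i; omega
  have hdis : ∀ i j, i ≠ j → Disjoint (Zs i) (Zs j) := by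
    have key : ∀ i j, i < j → Disjoint (Zs i) (Zs j) := by
      intro i j hij
      refine Zg_disj ?_
      have h1 := hScl.step i j hij
      have h2 := hLok.a_pos i
      have h3 : (16 : ℤ) * a i ≤ K * a i := mul_le_mul_of_nonneg_right
        (by linarith [hK64, show (16 : ℤ) ≤ 2 ^ 64 by norm_num]) (hp0 i)
      omega
    intro i j hij
    rcases lt_or_gt_of_ne hij with h | h
    · exact key i j h
    · exact (key j i h).symm
  have hV1ind : ∀ i, Ind (Zs i) V1 := fun i =>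
    FKA.Ind.mono (hZU i) (Vc_ind (hLok.UU_sub hW.flat (by omega)))
  have hV10 : ∀ ω, 0 ≤ V1 ω := fun ω => zero_le_one.trans (Vc_one_le hv1)
  set Yp : Cfg → ℝ := fun ω => ∏ i, Yu θ M (τ i) (f i) (a i) (N i ω) ω with hYp
  set Ym : Cfg → ℝ := fun ω => ∏ i, Yl θ M (τ i) (f i) b (a i) (N i ω) ω with hYm
  have hYu0 : ∀ i ω, 0 ≤ Yu θ M (τ i) (f i) (a i) (N i ω) ω := fun i ω => by
    unfold Yu; positivity
  have hYl0 : ∀ i ω, 0 ≤ Yl θ M (τ i) (f i) b (a i) (N i ω) ω := fun i ω => by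
    unfold Yl; positivity
  have hE1 : 0 ≤ Ex (2 * Real.cos θ) D η V1 := FKA.Ex_nonneg hQ0 fun _ _ => hV10 _
  have hga0 : ∀ i, 0 < ga i := fun i => Real.exp_pos _
  have hga4 : ∀ i, Real.exp (-(4 * (Real.tan θ * (τ i * NbP P (kp * a i))))) = ga i ^ 4 := by
    intro i
    simp only [hga]
    rw [← Real.exp_nat_mul]
    congr 1
    push_cast
    ring
  have hga2 : ∀ i, Real.exp (2 * (Real.tan θ * (τ i * NbP P (kp * a i)))) = ((ga i)⁻¹) ^ 2 := by
    intro i
    simp only [hga]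
    rw [← Real.exp_neg, ← Real.exp_nat_mul]
    congr 1
    push_cast
    ring
  have mom4 : Ex (2 * Real.cos θ) D η (fun ω => V1 ω * (Yp ω ^ 2) ^ 2) ≤
      (Real.sqrt (CY ^ m) * g ^ 2) ^ 2 * Ex (2 * Real.cos θ) D η V1 := by
    have h1 := prod_ind (Q := 2 * Real.cos θ) (D := D) (η := η) (Finset.univ : Finset (Fin m))
      (F := fun i ω => Yu θ M (τ i) (f i) (a i) (N i ω) ω ^ 4) (S := Zs) (c := fun i => CY * ga i ^ 4)
      (fun i _ => by have := hga0 i; positivity) (fun i _ => hZD i)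
      (fun i _ ω => by have := hYu0 i ω; positivity)
      (fun i _ ω ω' h1 h2 => by
        have := (hYi2 i).1 ω ω' h1 h2
        simp only at this ⊢
        rw [this])
      (fun i _ j _ hij => hdis i j hij)
      (fun i _ G hG0 hG => by
        have := ((hYi2 i).2.2 G hG0 hG).1
        rwa [hga4] at this) hV10 (fun i _ => hV1ind i)
    have e1 : (Real.sqrt (CY ^ m) * g ^ 2) ^ 2 = ∏ i : Fin m, CY * ga i ^ 4 := by
      rw [mul_pow, Real.sq_sqrt (by positivity), Finset.prod_mul_distrib, Finset.prod_const,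
        Finset.card_univ, Fintype.card_fin, hg, Finset.prod_pow, ← pow_mul]
    rw [e1]
    refine le_trans (le_of_eq ?_) h1
    refine FKA.Ex_congr fun S _ => ?_
    rw [hYp]
    simp only
    rw [← pow_mul, ← Finset.prod_pow]
  have mom2 : Ex (2 * Real.cos θ) D η (fun ω => V1 ω * Ym ω ^ 2) ≤
      (Real.sqrt (CY ^ m) * g⁻¹) ^ 2 * Ex (2 * Real.cos θ) D η V1 := by
    have h1 := prod_ind (Q := 2 * Real.cos θ) (D := D) (η := η) (Finset.univ : Finset (Fin m))
      (F := fun i ω => Yl θ M (τ i) (f i) b (a i) (N i ω) ω ^ 2) (S := Zs)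
      (c := fun i => CY * ((ga i)⁻¹) ^ 2)
      (fun i _ => by have := hga0 i; positivity) (fun i _ => hZD i)
      (fun i _ ω => by have := hYl0 i ω; positivity)
      (fun i _ ω ω' h1 h2 => by
        have := (hYi2 i).2.1 ω ω' h1 h2
        simp only at this ⊢
        rw [this])
      (fun i _ j _ hij => hdis i j hij)
      (fun i _ G hG0 hG => by
        have := ((hYi2 i).2.2 G hG0 hG).2
        rwa [hga2] at this) hV10 (fun i _ => hV1ind i)
    have e1 : (Real.sqrt (CY ^ m) * g⁻¹) ^ 2 = ∏ i : Fin m, CY * ((ga i)⁻¹) ^ 2 := by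
      rw [mul_pow, Real.sq_sqrt (by positivity), Finset.prod_mul_distrib, Finset.prod_const,
        Finset.card_univ, Fintype.card_fin, hg, Finset.prod_pow, Finset.prod_inv_distrib]
    rw [e1]
    refine le_trans (le_of_eq ?_) h1
    refine FKA.Ex_congr fun S _ => ?_
    rw [hYm]
    simp only
    rw [← Finset.prod_pow]
  -- the reference bounds
  have hfac : Real.sqrt (Mr * (Mr * B ^ (L + 1)) ^ ((1 / 2 : ℝ) ^ S)) ≤ Γ := by
    refine Real.sqrt_le_sqrt ?_
    exact mul_le_mul_of_nonneg_left (rpow_lev hMr hB hS1) (by linarith)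
  have hYm0 : ∀ ω, 0 ≤ Ym ω := fun ω => Finset.prod_nonneg fun i _ => hYl0 i ω
  have hA0 : 0 ≤ A := by linarith
  have m1 : Ex (2 * Real.cos θ) D η (fun ω => V ω * Yp ω ^ 2) ≤ C2 * g ^ 2 * A := by
    have h1 := href S R a hLok hp2 n q D l η pl pr hW hO v hv0 hv1 hv2 _ htop' (fun ω => Yp ω ^ 2)
      (Real.sqrt (CY ^ m) * g ^ 2) (fun ω => sq_nonneg _) (by positivity) mom4
    refine h1.trans ?_
    have h2 : Real.sqrt (Mr * (Mr * B ^ (L + 1)) ^ ((1 / 2 : ℝ) ^ S)) * (Real.sqrt (CY ^ m) * g ^ 2) ≤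
        C2 * g ^ 2 := by
      rw [hC2, mul_assoc]
      exact mul_le_mul_of_nonneg_right hfac (by positivity)
    exact mul_le_mul_of_nonneg_right h2 hA0
  have m2 : Ex (2 * Real.cos θ) D η (fun ω => V ω * Ym ω) ≤ C2 / g * A := by
    have h1 := href S R a hLok hp2 n q D l η pl pr hW hO v hv0 hv1 hv2 _ htop' Ym
      (Real.sqrt (CY ^ m) * g⁻¹) hYm0 (by positivity) mom2
    refine h1.trans ?_
    have h2 : Real.sqrt (Mr * (Mr * B ^ (L + 1)) ^ ((1 / 2 : ℝ) ^ S)) * (Real.sqrt (CY ^ m) * g⁻¹) ≤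
        C2 / g := by
      have e : C2 / g = Γ * (Real.sqrt (CY ^ m) * g⁻¹) := by rw [hC2]; ring
      rw [e]
      exact mul_le_mul_of_nonneg_right hfac (by positivity)
    exact mul_le_mul_of_nonneg_right h2 hA0
  -- the bad events
  have hb1 := hbad S R a hLok K (by linarith) hScl.step n q D l η hW hO.good v hv0 hv1
  have hε := hK1' K hKK1
  have hK0 : (0 : ℝ) < K := by
    have : (0 : ℤ) < K := by linarith
    exact_mod_cast this
  have hε0 : 0 ≤ CX * (2 / (K : ℝ)) ^ α := by positivity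
  have hts := two_sided (Q := 2 * Real.cos θ) (D := D) (η := η) (V := V) (Yp := Yp) (Ym := Ym) (X := X)
    (Bad := BadS b a) (C1 := C1) (C2 := C2) (g := g) (A := A) (ε := CX * (2 / (K : ℝ)) ^ α)
    hQ0 hV0 hYm0 hC1 hC20 hg0 rfl (by linarith)
    (fun S hS => (hX S hS (fun i => N i (cf D η S)) fun i => hN1 i _).1)
    (fun S hS hbd => (hX S hS (fun i => N i (cf D η S)) fun i => hN1 i _).2
      fun i j hij hx => hbd ⟨i, j, hij, hx⟩) m1 m2 hε0 (hε.trans (min_le_left _ _)) hb1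
  have hEg : g * Real.exp (Ex0 θ P τ a) = 1 := by
    rw [hgE, ← Real.exp_add]; simp
  have hexp : 0 < Real.exp (Ex0 θ P τ a) := Real.exp_pos _
  have hc1 : C1 * Real.sqrt (C2 * (CX * (2 / (K : ℝ)) ^ α)) ≤ 1 / (8 * C1 * C2) := by
    have h1 : C2 * (CX * (2 / (K : ℝ)) ^ α) ≤ (1 / (8 * C1 ^ 2 * C2)) ^ 2 := by
      have h2 := hε.trans (min_le_right _ _)
      rw [le_div_iff₀ hC20] at h2
      linarith
    have h3 : Real.sqrt (C2 * (CX * (2 / (K : ℝ)) ^ α)) ≤ 1 / (8 * C1 ^ 2 * C2) := by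
      rw [← Real.sqrt_sq (by positivity : (0 : ℝ) ≤ 1 / (8 * C1 ^ 2 * C2))]
      exact Real.sqrt_le_sqrt h1
    calc C1 * Real.sqrt (C2 * (CX * (2 / (K : ℝ)) ^ α)) ≤ C1 * (1 / (8 * C1 ^ 2 * C2)) :=
          mul_le_mul_of_nonneg_left h3 hC1.le
      _ = 1 / (8 * C1 * C2) := by field_simp
  have hc2 : 1 / (8 * C1 * C2) ≤ 1 / (4 * C1 * C2) -
      C1 * Real.sqrt (C2 * (CX * (2 / (K : ℝ)) ^ α)) := by
    have e : 1 / (4 * C1 * C2) = 1 / (8 * C1 * C2) + 1 / (8 * C1 * C2) := by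
      field_simp
      norm_num
    linarith
  have hc0 : 0 < 1 / (8 * C1 * C2) := by positivity
  constructor
  · have h1 : 1 / (8 * C1 * C2) * (g * A) ≤ Ex (2 * Real.cos θ) D η X :=
      (mul_le_mul_of_nonneg_right hc2 (by positivity)).trans hts.1
    have h2 : 1 / (8 * C1 * C2) * g ≤ 1 / (8 * C1 * C2) * (g * A) := by
      refine mul_le_mul_of_nonneg_left ?_ hc0.le
      nlinarith
    calc 1 / (8 * C1 * C2) = 1 / (8 * C1 * C2) * g * Real.exp (Ex0 θ P τ a) := by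
          rw [mul_assoc (1 / (8 * C1 * C2)), hEg, mul_one]
      _ ≤ _ := mul_le_mul_of_nonneg_right (h2.trans h1) hexp.le
  · have h1 : Ex (2 * Real.cos θ) D η X ≤ C1 * Real.sqrt C2 * (g * B ^ (L + 1)) :=
      hts.2.trans (mul_le_mul_of_nonneg_left (mul_le_mul_of_nonneg_left hAle hg0.le) (by positivity))
    calc Ex (2 * Real.cos θ) D η X * Real.exp (Ex0 θ P τ a) ≤
        C1 * Real.sqrt C2 * (g * B ^ (L + 1)) * Real.exp (Ex0 θ P τ a) :=
          mul_le_mul_of_nonneg_right h1 hexp.le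
      _ = C1 * Real.sqrt C2 * B ^ (L + 1) * (g * Real.exp (Ex0 θ P τ a)) := by ring
      _ = C1 * Real.sqrt C2 * B ^ (L + 1) := by rw [hEg, mul_one]

end Vale.Agent.P167.N.H436.ND
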